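import Vale.Agent.P300.H573.Cmp

/-!
# P300, block [CMP-COV]: the completion is functorial, and coverings with the same local models
extend to coverings of the completions
-/

open Topology Filter Set

set_option linter.unusedSectionVars false
set_option linter.style.haveILetI false

namespace Vale.Agent.P300.H573

/-- A point with a neighbourhood `range c` over which `f` has a family of disjoint sections (over
the parametrisation `c`) with open images filling the preimage is evenly covered. -/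
theorem isEvenlyCovered_of_sections {E X M J : Type*} [TopologicalSpace E] [TopologicalSpace X]
    [TopologicalSpace M] [TopologicalSpace J] [DiscreteTopology J] {f : E → X} {c : M → X}
    (hc : IsOpenEmbedding c)
    (s : J → M → E) (hs : ∀ j, IsOpenEmbedding (s j)) (hfs : ∀ j p, f (s j p) = c p)
    (hd : ∀ j j', j ≠ j' → Disjoint (range (s j)) (range (s j')))
    (hcov : ∀ e, f e ∈ range c → ∃ j, e ∈ range (s j)) (p0 : M) :
    IsEvenlyCovered f (c p0) J := by
  have hpre : f ⁻¹' (range c) = ⋃ j, range (s j) := by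
    ext e
    simp only [mem_preimage, mem_iUnion]
    constructor
    · exact hcov e
    · rintro ⟨j, p, rfl⟩; rw [hfs]; exact mem_range_self p
  have hopen : IsOpen (f ⁻¹' (range c)) := by
    rw [hpre]; exact isOpen_iUnion fun j => (hs j).isOpen_range
  -- the total section
  let Ψ : M × J → f ⁻¹' (range c) := fun pj => ⟨s pj.2 pj.1, by
    show f (s pj.2 pj.1) ∈ range c
    rw [hfs]; exact mem_range_self _⟩
  have hΨc : Continuous Ψ := by
    rw [continuous_prod_of_discrete_right]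
    intro j
    exact ((hs j).continuous).subtype_mk _
  have hΨo : IsOpenMap Ψ := by
    rw [isOpenMap_prod_of_discrete_right]
    intro j
    have h1 : IsOpenMap (Subtype.val ∘ fun p : M => Ψ (p, j)) := (hs j).isOpenMap
    exact (hopen.isOpenEmbedding_subtypeVal.isOpenMap_iff).2 h1
  have hΨb : Function.Bijective Ψ := by
    constructor
    · rintro ⟨p, j⟩ ⟨p', j'⟩ h
      have h1 : s j p = s j' p' := congrArg Subtype.val h
      by_cases hj : j = j'
      · subst hj
        rw [(hs j).injective h1]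
      · exact ((hd j j' hj).le_bot ⟨⟨p, rfl⟩, ⟨p', h1.symm⟩⟩).elim
    · rintro ⟨e, he⟩
      obtain ⟨j, p, hp⟩ := hcov e he
      exact ⟨(p, j), Subtype.ext hp⟩
  let Φ : (M × J) ≃ₜ f ⁻¹' (range c) :=
    (Equiv.ofBijective Ψ hΨb).toHomeomorphOfContinuousOpen hΨc hΨo
  have hΦ : ∀ pj, Φ pj = Ψ pj := fun _ => rfl
  refine ⟨inferInstance, range c, mem_range_self p0, hc.isOpen_range, hopen,
    Φ.symm.trans ((hc.isEmbedding.toHomeomorph).prodCongr (Homeomorph.refl J)), fun e => ?_⟩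
  obtain ⟨⟨p, j⟩, rfl⟩ := Φ.surjective e
  simp only [Homeomorph.trans_apply, Homeomorph.symm_apply_apply]
  show c p = f (Φ (p, j)).1
  rw [hΦ]
  exact (hfs j p).symm

namespace Models

variable {Y Y' X0 X0' : Type} [TopologicalSpace Y] [TopologicalSpace Y'] [TopologicalSpace X0]
  [TopologicalSpace X0'] {q : X0 → Y} {q' : X0' → Y'}

/-- Two families of local models, `D'` for `X0'` and `D` for `X0`, and a map `g : X0' → X0` which
on each piece of `X0'` is a homeomorphism of models onto a piece of `X0`. -/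
structure Hom (D' : Models q') (D : Models q) (g : X0' → X0) where
  s : D'.I → D.I
  φ : ∀ i', D'.M i' ≃ₜ D.M (s i')
  φ_mem : ∀ i' (z : D'.M0 i'), φ i' z ∈ D.M0 (s i')
  φ_h : ∀ i' (z : D'.M0 i'), g (D'.h i' z) = D.h (s i') ⟨φ i' z, φ_mem i' z⟩
  cov : ∀ i x', g x' ∈ range (D.h i) → ∃ i', s i' = i ∧ x' ∈ range (D'.h i')
  disj : ∀ i' j', s i' = s j' → i' ≠ j' → Disjoint (range (D'.h i')) (range (D'.h j'))

namespace Hom

variable {D' : Models q'} {D : Models q} {g : X0' → X0} (H : Hom D' D g)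

/-- the extension of `g` to the completions -/
noncomputable def ext : D'.Cmp → D.Cmp := D'.desc fun i' p => D.hat (H.s i') (H.φ i' p)

variable [T2Space Y] [LocallyCompactSpace Y] [T2Space Y'] [LocallyCompactSpace Y']

theorem ext_hat (i' : D'.I) (p : D'.M i') :
    H.ext (D'.hat i' p) = D.hat (H.s i') (H.φ i' p) := by
  refine D'.desc_hat (Z := D.Cmp) (f := D.incl ∘ g) (fun i' => ?_) (fun i' z => ?_) i' p
  · exact (D.continuous_hat _).comp (H.φ i').continuous
  · show D.incl (g (D'.h i' z)) = _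
    rw [H.φ_h, D.incl_h]

theorem continuous_ext : Continuous H.ext := by
  refine D'.continuous_desc (Z := D.Cmp) (f := D.incl ∘ g) (fun i' => ?_) (fun i' z => ?_)
  · exact (D.continuous_hat _).comp (H.φ i').continuous
  · show D.incl (g (D'.h i' z)) = _
    rw [H.φ_h, D.incl_h]

theorem ext_incl (x' : X0') : H.ext (D'.incl x') = D.incl (g x') := by
  obtain ⟨i', z, rfl⟩ := D'.exists_piece x'
  rw [D'.incl_h, H.ext_hat, H.φ_h, D.incl_h]

theorem map_Th (i' : D'.I) (p : D'.M i') :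
    map g (D'.Th i' p) ≤ D.Th (H.s i') (H.φ i' p) := by
  intro t ht
  obtain ⟨V, hV, hVt⟩ := D.mem_Th.1 ht
  rw [mem_map]
  refine D'.mem_Th.2 ⟨H.φ i' ⁻¹' V, (H.φ i').continuous.continuousAt hV, fun z hz => ?_⟩
  show g (D'.h i' z) ∈ t
  rw [H.φ_h]
  exact hVt _ hz

/-- key point: over the piece `i` of `X`, the completion `X'` consists of the pieces over `i` -/
theorem exists_over (j' : D'.I) (p' : D'.M j') (i : D.I) (p : D.M i)
    (h : D.hat (H.s j') (H.φ j' p') = D.hat i p) :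
    ∃ i', H.s i' = i ∧ D'.hat j' p' ∈ range (D'.hat i') := by
  have hle := H.map_Th j' p'
  rw [D.hat_eq_iff.1 h] at hle
  have hr : g ⁻¹' (range (D.h i)) ∈ D'.Th j' p' := hle (D.range_mem_Th i p)
  obtain ⟨V, hV, hVr⟩ := D'.mem_Th.1 hr
  obtain ⟨V1, hV1V, hV1, hc⟩ := D'.nonsep j' p' V hV
  have hS : IsConnected (D'.h j' '' (Subtype.val ⁻¹' V1)) := by
    have : IsConnected ((Subtype.val : D'.M0 j' → D'.M j') ⁻¹' (V1 ∩ D'.M0 j')) :=
      hc.preimage_of_isOpenMap Subtype.val_injective (D'.isOpen_M0 j').isOpenMap_subtype_val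
        (by rintro x ⟨_, hx⟩; exact ⟨⟨x, hx⟩, rfl⟩)
    have h2 := this.image (D'.h j') (D'.h_emb j').continuous.continuousOn
    convert! h2 using 2
    ext x; simp
  obtain ⟨x0, hx0⟩ := hS.nonempty
  have hSr : ∀ x ∈ D'.h j' '' (Subtype.val ⁻¹' V1), g x ∈ range (D.h i) := by
    rintro _ ⟨z, hz, rfl⟩; exact hVr z (hV1V hz)
  obtain ⟨i', hi', hx0i'⟩ := H.cov i x0 (hSr x0 hx0)
  have hSi' : D'.h j' '' (Subtype.val ⁻¹' V1) ⊆ range (D'.h i') := by
    refine hS.isPreconnected.subset_left_of_subset_union (D'.h_emb i').isOpen_range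
      (v := ⋃ k ∈ {k | H.s k = i ∧ k ≠ i'}, range (D'.h k)) ?_ ?_ ?_ ⟨x0, hx0, hx0i'⟩
    · exact isOpen_biUnion fun k _ => (D'.h_emb k).isOpen_range
    · rw [disjoint_iUnion₂_right]
      rintro k ⟨h1, h2⟩
      exact H.disj i' k (hi'.trans h1.symm) h2.symm
    · intro x hx
      obtain ⟨k, hk, hxk⟩ := H.cov i x (hSr x hx)
      by_cases hki : k = i'
      · subst hki; exact Or.inl hxk
      · exact Or.inr (mem_biUnion (show k ∈ {k | H.s k = i ∧ k ≠ i'} from ⟨hk, hki⟩) hxk)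
  have hSmem : D'.h j' '' (Subtype.val ⁻¹' V1) ∈ D'.Th j' p' :=
    D'.mem_Th.2 ⟨V1, hV1, fun x hx => ⟨x, hx, rfl⟩⟩
  refine ⟨i', hi', ?_⟩
  subst hi'
  refine ⟨(H.φ i').symm p, ?_⟩
  rw [D'.hat_eq_iff]
  symm
  refine D'.eq_of_le ?_
  intro t ht
  obtain ⟨W, hW, hWt⟩ := D'.mem_Th.1 ht
  have hφW : (H.φ i').symm ⁻¹' W ∈ 𝓝 p := (H.φ i').symm.continuous.continuousAt hW
  have h1 : D.h (H.s i') '' (Subtype.val ⁻¹' ((H.φ i').symm ⁻¹' W)) ∈ D.Th (H.s i') p :=
    D.mem_Th.2 ⟨_, hφW, fun x hx => ⟨x, hx, rfl⟩⟩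
  have h2 := hle h1
  filter_upwards [h2, hSmem] with x hx hxS
  obtain ⟨z, rfl⟩ := hSi' hxS
  obtain ⟨y, hy, hyz⟩ := hx
  rw [H.φ_h] at hyz
  have hyz' := (D.h_emb (H.s i')).injective hyz
  refine hWt z ?_
  have h3 : (H.φ i').symm y.1 ∈ W := hy
  rw [hyz'] at h3
  simpa using h3

theorem ext_mem_range_iff (x' : D'.Cmp) (i : D.I) :
    H.ext x' ∈ range (D.hat i) ↔ ∃ i', H.s i' = i ∧ x' ∈ range (D'.hat i') := by
  constructor
  · rintro ⟨p, hp⟩
    obtain ⟨j', p', rfl⟩ := D'.exists_hat x'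
    rw [H.ext_hat] at hp
    exact H.exists_over j' p' i p hp.symm
  · rintro ⟨i', rfl, p', rfl⟩
    rw [H.ext_hat]; exact mem_range_self _

theorem disjoint_hat {i' j' : D'.I} (hs : H.s i' = H.s j') (hne : i' ≠ j') :
    Disjoint (range (D'.hat i')) (range (D'.hat j')) := by
  rw [Set.disjoint_left]
  rintro _ ⟨p, rfl⟩ ⟨p', hp'⟩
  have h := D'.hat_eq_iff.1 hp'
  have h1 := D'.range_mem_Th i' p
  have h2 := D'.range_mem_Th j' p'
  rw [h] at h2
  obtain ⟨x, hx⟩ := Filter.nonempty_of_mem (inter_mem h1 h2)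
  exact (H.disj i' j' hs hne).le_bot ⟨hx.1, hx.2⟩

/-- **[CMP-COV]** The extension of `g` to the completions is a covering map. -/
theorem isCoveringMap_ext : IsCoveringMap H.ext := by
  intro x
  obtain ⟨i, p, rfl⟩ := D.exists_hat x
  letI : TopologicalSpace {i' // H.s i' = i} := ⊥
  haveI : DiscreteTopology {i' // H.s i' = i} := ⟨rfl⟩
  have hφ : ∀ i' : {i' // H.s i' = i}, ∃ φ' : D'.M i' ≃ₜ D.M i, ∀ p',
      D.hat i (φ' p') = D.hat (H.s i') (H.φ i' p') := by
    rintro ⟨i', rfl⟩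
    exact ⟨H.φ i', fun _ => rfl⟩
  choose φ' hφ' using hφ
  have h := isEvenlyCovered_of_sections (f := H.ext) (D.isOpenEmbedding_hat i)
    (J := {i' // H.s i' = i})
    (fun i' p => D'.hat i' ((φ' i').symm p))
    (fun i' => (D'.isOpenEmbedding_hat i').comp (φ' i').symm.isOpenEmbedding)
    (fun i' p => by rw [H.ext_hat, ← hφ', Homeomorph.apply_symm_apply])
    (fun i' j' hne => by
      have h1 := H.disjoint_hat (i'.2.trans j'.2.symm) (fun h => hne (Subtype.ext h))
      refine h1.mono ?_ ?_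
      · rintro _ ⟨p, rfl⟩; exact mem_range_self _
      · rintro _ ⟨p, rfl⟩; exact mem_range_self _)
    (fun x' hx' => by
      obtain ⟨i', hi', p', rfl⟩ := (H.ext_mem_range_iff x' i).1 hx'
      exact ⟨⟨i', hi'⟩, φ' ⟨i', hi'⟩ p', by simp⟩) p
  exact h.to_isEvenlyCovered_preimage

theorem surjective_ext (hs : Function.Surjective H.s) : Function.Surjective H.ext := by
  intro x
  obtain ⟨i, p, rfl⟩ := D.exists_hat x
  obtain ⟨i', rfl⟩ := hs i
  exact ⟨D'.hat i' ((H.φ i').symm p), by rw [H.ext_hat]; simp⟩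

end Hom

end Models

end Vale.Agent.P300.H573

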