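import Mathlib

/-!
# P300, block [CMP]: the compact completion of a finite cover with given local models

`q : X0 → Y` is a continuous map (a finite covering of an open subset of the compact space `Y`),
and over an open cover `N a` of `Y` it is described by finitely many *pieces*: open embeddings
`h i : M0 i → X0` of an open, locally non-separating subset `M0 i` of a model space `M i`, on
which `q` extends to a proper map `m i : M i → N (b i)` with finite fibres.

The completion `D.Cmp` is the set of the filters `Θ i p` (traces of the neighbourhoods of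
`p ∈ M i`) on `X0`.
-/

open Topology Filter Set

namespace Vale.Agent.P300.H573

/-- Local models (over an open cover of `Y`) of a map `q : X0 → Y`. -/
structure Models {Y X0 : Type} [TopologicalSpace Y] [TopologicalSpace X0] (q : X0 → Y) where
  /-- base charts -/
  A : Type
  N : A → Set Y
  isOpen_N : ∀ a, IsOpen (N a)
  cover : ∀ y, ∃ a, y ∈ N a
  /-- pieces -/
  I : Type
  /-- the base chart of a piece -/
  b : I → A
  M : I → Type
  topM : ∀ i, TopologicalSpace (M i)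
  t3M : ∀ i, T3Space (M i)
  M0 : ∀ i, Set (M i)
  isOpen_M0 : ∀ i, IsOpen (M0 i)
  nonsep : ∀ i (p : M i), ∀ W ∈ 𝓝 p, ∃ V ⊆ W, V ∈ 𝓝 p ∧ IsConnected (V ∩ M0 i)
  h : ∀ i, M0 i → X0
  h_emb : ∀ i, IsOpenEmbedding (h i)
  m : ∀ i, M i → Y
  m_cont : ∀ i, Continuous (m i)
  m_h : ∀ i (x : M0 i), q (h i x) = m i x
  m_mem : ∀ i p, m i p ∈ N (b i)
  proper : ∀ i (K : Set Y), IsCompact K → K ⊆ N (b i) → IsCompact (m i ⁻¹' K)
  fin : ∀ i y, (m i ⁻¹' {y}).Finite
  disj : ∀ i j, b i = b j → i ≠ j → Disjoint (range (h i)) (range (h j))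
  cov : ∀ x a, q x ∈ N a → ∃ i, b i = a ∧ x ∈ range (h i)

namespace Models

attribute [instance] topM t3M

variable {Y X0 : Type} [TopologicalSpace Y] [TopologicalSpace X0] {q : X0 → Y} (D : Models q)

/-- the trace on `X0` of the neighbourhoods of the point `p` of the model `M i` -/
def Th (i : D.I) (p : D.M i) : Filter X0 := map (D.h i) (comap Subtype.val (𝓝 p))

theorem mem_Th {i : D.I} {p : D.M i} {s : Set X0} :
    s ∈ D.Th i p ↔ ∃ V ∈ 𝓝 p, ∀ x : D.M0 i, x.1 ∈ V → D.h i x ∈ s := by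
  simp only [Th, mem_map, mem_comap]
  constructor
  · rintro ⟨V, hV, h⟩; exact ⟨V, hV, fun x hx => h hx⟩
  · rintro ⟨V, hV, h⟩; exact ⟨V, hV, fun x hx => h x hx⟩

instance neBot_comap (i : D.I) (p : D.M i) :
    NeBot (comap (Subtype.val : D.M0 i → D.M i) (𝓝 p)) := by
  rw [comap_neBot_iff]
  intro t ht
  obtain ⟨V, hVt, -, hc⟩ := D.nonsep i p t ht
  obtain ⟨x, hxV, hx0⟩ := hc.nonempty
  exact ⟨⟨x, hx0⟩, hVt hxV⟩

instance neBot_Th (i : D.I) (p : D.M i) : NeBot (D.Th i p) := by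
  unfold Th; infer_instance

theorem dense_M0 (i : D.I) : Dense (D.M0 i) := by
  intro p
  rw [mem_closure_iff_nhds]
  intro t ht
  obtain ⟨V, hVt, -, hc⟩ := D.nonsep i p t ht
  obtain ⟨x, hxV, hx0⟩ := hc.nonempty
  exact ⟨x, hVt hxV, hx0⟩

theorem range_mem_Th (i : D.I) (p : D.M i) : range (D.h i) ∈ D.Th i p :=
  D.mem_Th.2 ⟨univ, univ_mem, fun x _ => mem_range_self x⟩

theorem tendsto_q (i : D.I) (p : D.M i) : Tendsto q (D.Th i p) (𝓝 (D.m i p)) := by
  intro s hs
  have h1 : D.m i ⁻¹' s ∈ 𝓝 p := (D.m_cont i).continuousAt hs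
  refine D.mem_Th.2 ⟨_, h1, fun x hx => ?_⟩
  show q (D.h i x) ∈ s
  rw [D.m_h]; exact hx

theorem tendsto_of_ext {Z : Type*} [TopologicalSpace Z] {f : X0 → Z} {i : D.I}
    {F : D.M i → Z} (hF : Continuous F) (hf : ∀ x : D.M0 i, f (D.h i x) = F x) (p : D.M i) :
    Tendsto f (D.Th i p) (𝓝 (F p)) := by
  intro s hs
  have h1 : F ⁻¹' s ∈ 𝓝 p := hF.continuousAt hs
  refine D.mem_Th.2 ⟨_, h1, fun x hx => ?_⟩
  show f (D.h i x) ∈ s
  rw [hf]; exact hx

theorem Th_of_mem (i : D.I) (x : D.M0 i) : D.Th i x = 𝓝 (D.h i x) := by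
  rw [Th, ← nhds_subtype_eq_comap, (D.h_emb i).map_nhds_eq]

theorem m_eq [T2Space Y] {i j : D.I} {p : D.M i} {p' : D.M j} (h : D.Th i p ≤ D.Th j p') :
    D.m i p = D.m j p' :=
  tendsto_nhds_unique (D.tendsto_q i p) ((D.tendsto_q j p').mono_left h)

theorem inj_le {i : D.I} {p p' : D.M i} (h : D.Th i p ≤ D.Th i p') : p = p' := by
  unfold Th at h
  rw [map_le_map_iff (D.h_emb i).injective] at h
  by_contra hne
  obtain ⟨U, V, hU, hV, hpU, hpV, hd⟩ := t2_separation hne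
  have h1 : (Subtype.val : D.M0 i → D.M i) ⁻¹' U ∈ comap (Subtype.val : D.M0 i → D.M i) (𝓝 p) :=
    preimage_mem_comap (hU.mem_nhds hpU)
  have h2 : (Subtype.val : D.M0 i → D.M i) ⁻¹' V ∈ comap (Subtype.val : D.M0 i → D.M i) (𝓝 p) :=
    h (preimage_mem_comap (hV.mem_nhds hpV))
  obtain ⟨x, hx⟩ := Filter.nonempty_of_mem (inter_mem h1 h2)
  exact hd.le_bot ⟨hx.1, hx.2⟩

theorem index_eq {i j : D.I} {p : D.M i} {p' : D.M j} (hb : D.b i = D.b j)
    (h : D.Th i p ≤ D.Th j p') : i = j := by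
  by_contra hne
  have h1 := D.range_mem_Th i p
  have h2 := h (D.range_mem_Th j p')
  obtain ⟨x, hx⟩ := Filter.nonempty_of_mem (inter_mem h1 h2)
  exact (D.disj i j hb hne).le_bot ⟨hx.1, hx.2⟩

/-- Key lemma: every trace is below a trace coming from any base chart containing its image. -/
theorem exists_le [T2Space Y] [LocallyCompactSpace Y] (i : D.I) (p : D.M i) (a : D.A)
    (ha : D.m i p ∈ D.N a) : ∃ j, D.b j = a ∧ ∃ p' : D.M j, D.Th i p ≤ D.Th j p' := by
  obtain ⟨K, hK, hyK, hKN⟩ := exists_compact_subset (D.isOpen_N a) ha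
  have hW : D.m i ⁻¹' (interior K) ∈ 𝓝 p :=
    (D.m_cont i).continuousAt (isOpen_interior.mem_nhds hyK)
  obtain ⟨V, hVW, hVp, hVc⟩ := D.nonsep i p _ hW
  -- the connected set
  have key : ∀ V' ⊆ V, IsConnected (V' ∩ D.M0 i) →
      IsConnected (D.h i '' (Subtype.val ⁻¹' V')) := by
    intro V' _ hc
    have : IsConnected ((Subtype.val : D.M0 i → D.M i) ⁻¹' (V' ∩ D.M0 i)) :=
      hc.preimage_of_isOpenMap Subtype.val_injective (D.isOpen_M0 i).isOpenMap_subtype_val
        (by rintro x ⟨_, hx⟩; exact ⟨⟨x, hx⟩, rfl⟩)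
    have h2 := this.image (D.h i) (D.h_emb i).continuous.continuousOn
    convert! h2 using 2
    ext x; simp
  have hS := key V le_rfl hVc
  set S := D.h i '' (Subtype.val ⁻¹' V) with hSdef
  have hSN : ∀ x ∈ S, q x ∈ interior K := by
    rintro _ ⟨x, hx, rfl⟩
    rw [D.m_h]; exact hVW hx
  obtain ⟨x0, hx0⟩ := hS.nonempty
  obtain ⟨j, hj, hx0j⟩ := D.cov x0 a (hKN (interior_subset (hSN x0 hx0)))
  have hSj : S ⊆ range (D.h j) := by
    refine hS.isPreconnected.subset_left_of_subset_union (D.h_emb j).isOpen_range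
      (v := ⋃ j' ∈ {j' | D.b j' = a ∧ j' ≠ j}, range (D.h j')) ?_ ?_ ?_ ⟨x0, hx0, hx0j⟩
    · exact isOpen_biUnion fun j' _ => (D.h_emb j').isOpen_range
    · rw [disjoint_iUnion₂_right]
      rintro j' ⟨h1, h2⟩
      exact D.disj j j' (hj.trans h1.symm) h2.symm
    · intro x hx
      obtain ⟨j', hj', hxj'⟩ := D.cov x a (hKN (interior_subset (hSN x hx)))
      by_cases h : j' = j
      · subst h; exact Or.inl hxj'
      · exact Or.inr (mem_biUnion (show j' ∈ {j' | D.b j' = a ∧ j' ≠ j} from ⟨hj', h⟩) hxj')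
  have hSmem : S ∈ D.Th i p := D.mem_Th.2 ⟨V, hVp, fun x hx => ⟨x, hx, rfl⟩⟩
  -- pull back to the model `j`
  set G : Filter (D.M0 j) := comap (D.h j) (D.Th i p) with hG
  have hmapG : map (D.h j) G = D.Th i p := by
    rw [hG, map_comap_of_mem (mem_of_superset hSmem hSj)]
  have hGne : NeBot G := by
    rw [← map_neBot_iff (D.h j), hmapG]; infer_instance
  set G' : Filter (D.M j) := map Subtype.val G with hG'
  have hG'ne : NeBot G' := hGne.map _
  have hKN' : K ⊆ D.N (D.b j) := by rw [hj]; exact hKN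
  have hcomp := D.proper j K hK hKN'
  have hKG : D.m j ⁻¹' K ∈ G' := by
    rw [hG', mem_map, hG]
    refine ⟨S, hSmem, fun x hx => ?_⟩
    show D.m j x ∈ K
    rw [← D.m_h]
    exact interior_subset (hSN _ hx)
  obtain ⟨p', hp'K, hp'⟩ := hcomp (le_principal_iff.2 hKG)
  refine ⟨j, hj, p', ?_⟩
  have htm : Tendsto (D.m j) G' (𝓝 (D.m i p)) := by
    rw [hG', tendsto_map'_iff]
    have h1 : Tendsto q (map (D.h j) G) (𝓝 (D.m i p)) := by
      rw [hmapG]; exact D.tendsto_q i p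
    rw [tendsto_map'_iff] at h1
    refine h1.congr fun x => ?_
    simp [D.m_h]
  have hmp' : D.m j p' = D.m i p := by
    have h1 : ClusterPt (D.m j p') (map (D.m j) G') :=
      hp'.map ((D.m_cont j).continuousAt) tendsto_map
    have h2 : ClusterPt (D.m j p') (𝓝 (D.m i p)) := h1.mono htm
    exact eq_of_nhds_neBot h2
  -- `G'` converges to `p'`
  suffices hconv : G' ≤ 𝓝 p' by
    have h1 : G ≤ comap Subtype.val (𝓝 p') := by
      rw [← map_le_iff_le_comap]; exact hconv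
    calc D.Th i p = map (D.h j) G := hmapG.symm
      _ ≤ D.Th j p' := map_mono h1
  intro W' hW'
  obtain ⟨W1, hW1W', hW1o, hpW1⟩ := mem_nhds_iff.1 hW'
  set F := D.m j ⁻¹' {D.m i p} with hF
  have hFfin : F.Finite := D.fin j _
  obtain ⟨O1, O2, hO1, hO2, hpO1, hFO2, hdis⟩ :
      SeparatedNhds {p'} (F \ {p'}) :=
    SeparatedNhds.of_isCompact_isCompact (Set.finite_singleton p').isCompact
      (hFfin.subset sdiff_subset).isCompact (by simp)
  -- neighbourhood of `y` over which the model is in `O1 ∩ W1` or `O2`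
  have hC : IsCompact ((D.m j ⁻¹' K) \ ((O1 ∩ W1) ∪ O2)) :=
    hcomp.diff ((hO1.inter hW1o).union hO2)
  have hCy : D.m i p ∉ D.m j '' ((D.m j ⁻¹' K) \ ((O1 ∩ W1) ∪ O2)) := by
    rintro ⟨z, ⟨-, hz⟩, hzy⟩
    apply hz
    by_cases hzp : z = p'
    · left; subst hzp; exact ⟨hpO1 rfl, hpW1⟩
    · right; exact hFO2 ⟨hzy, hzp⟩
  have hN' : (D.m j '' ((D.m j ⁻¹' K) \ ((O1 ∩ W1) ∪ O2)))ᶜ ∩ interior K ∈ 𝓝 (D.m i p) := by
    refine inter_mem ?_ (isOpen_interior.mem_nhds hyK)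
    exact ((hC.image (D.m_cont j)).isClosed.isOpen_compl).mem_nhds hCy
  have hW2 : D.m i ⁻¹' ((D.m j '' ((D.m j ⁻¹' K) \ ((O1 ∩ W1) ∪ O2)))ᶜ ∩ interior K) ∩ V ∈ 𝓝 p :=
    inter_mem ((D.m_cont i).continuousAt hN') hVp
  obtain ⟨V1, hV1W, hV1p, hV1c⟩ := D.nonsep i p _ hW2
  have hV1V : V1 ⊆ V := fun x hx => (hV1W hx).2
  have hT0 := key V1 hV1V hV1c
  set T0 := D.h i '' (Subtype.val ⁻¹' V1) with hT0def
  have hT0S : T0 ⊆ S := image_mono (preimage_mono hV1V)
  have hT0mem : T0 ∈ D.Th i p := D.mem_Th.2 ⟨V1, hV1p, fun x hx => ⟨x, hx, rfl⟩⟩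
  have hTc : IsConnected (D.h j ⁻¹' T0) :=
    hT0.preimage_of_isOpenMap (D.h_emb j).injective (D.h_emb j).isOpenMap
      (hT0S.trans hSj)
  have hT'c : IsConnected ((Subtype.val : D.M0 j → D.M j) '' (D.h j ⁻¹' T0)) :=
    hTc.image _ continuous_subtype_val.continuousOn
  set T' := (Subtype.val : D.M0 j → D.M j) '' (D.h j ⁻¹' T0) with hT'def
  have hT'G : T' ∈ G' := by
    rw [hG', mem_map, hG]
    exact ⟨T0, hT0mem, fun x hx => ⟨x, hx, rfl⟩⟩
  have hT'sub : T' ⊆ (O1 ∩ W1) ∪ O2 := by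
    rintro _ ⟨x, hx, rfl⟩
    obtain ⟨z, hz, hzx⟩ := hx
    have h1 := hV1W hz
    have h2 : D.m i z = D.m j x := by
      rw [← D.m_h, ← D.m_h, hzx]
    by_contra hcon
    apply h1.1.1
    refine ⟨x, ⟨?_, hcon⟩, h2.symm⟩
    show D.m j x ∈ K
    rw [← h2]; exact interior_subset h1.1.2
  have hdis' : Disjoint (O1 ∩ W1) O2 := hdis.mono_left inter_subset_left
  have hmeet : (T' ∩ (O1 ∩ W1)).Nonempty := by
    have h1 : (O1 ∩ W1) ∈ 𝓝 p' := inter_mem (hO1.mem_nhds (hpO1 rfl)) (hW1o.mem_nhds hpW1)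
    have := (clusterPt_iff_nonempty.1 hp') h1 hT'G
    rwa [inter_comm] at this
  have hT'O1 : T' ⊆ O1 ∩ W1 :=
    hT'c.isPreconnected.subset_left_of_subset_union (hO1.inter hW1o) hO2 hdis' hT'sub hmeet
  exact mem_of_superset hT'G (hT'O1.trans (inter_subset_right.trans hW1W'))

theorem eq_of_le [T2Space Y] [LocallyCompactSpace Y] {i j : D.I} {p : D.M i} {p' : D.M j}
    (h : D.Th i p ≤ D.Th j p') : D.Th i p = D.Th j p' := by
  have h1 : D.m j p' ∈ D.N (D.b i) := by rw [← D.m_eq h]; exact D.m_mem i p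
  obtain ⟨i', hi', p'', hp''⟩ := D.exists_le j p' (D.b i) h1
  have h2 := h.trans hp''
  obtain rfl := D.index_eq hi'.symm h2
  obtain rfl := D.inj_le h2
  exact le_antisymm h hp''

theorem exists_eq [T2Space Y] [LocallyCompactSpace Y] (i : D.I) (p : D.M i) (a : D.A)
    (ha : D.m i p ∈ D.N a) : ∃ j, D.b j = a ∧ ∃ p' : D.M j, D.Th i p = D.Th j p' := by
  obtain ⟨j, hj, p', h⟩ := D.exists_le i p a ha
  exact ⟨j, hj, p', D.eq_of_le h⟩


/-! ### The completion -/

/-- the completion: the set of all traces -/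
def Cmp : Type := {F : Filter X0 // ∃ s : (Σ i, D.M i), D.Th s.1 s.2 = F}

/-- the point of the completion defined by a point of a model -/
def pt (s : Σ i, D.M i) : D.Cmp := ⟨D.Th s.1 s.2, s, rfl⟩

instance : TopologicalSpace D.Cmp := TopologicalSpace.coinduced D.pt inferInstance

/-- the chart of the piece `i` -/
def hat (i : D.I) (p : D.M i) : D.Cmp := D.pt ⟨i, p⟩

theorem hat_val (i : D.I) (p : D.M i) : (D.hat i p).1 = D.Th i p := rfl

theorem hat_eq_iff {i j : D.I} {p : D.M i} {p' : D.M j} :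
    D.hat i p = D.hat j p' ↔ D.Th i p = D.Th j p' := by
  constructor
  · intro h; exact congrArg Subtype.val h
  · intro h; exact Subtype.ext h

theorem exists_hat (x : D.Cmp) : ∃ i, ∃ p : D.M i, x = D.hat i p := by
  obtain ⟨F, ⟨i, p⟩, rfl⟩ := x
  exact ⟨i, p, rfl⟩

theorem isOpen_iff {U : Set D.Cmp} : IsOpen U ↔ ∀ i, IsOpen (D.hat i ⁻¹' U) := by
  rw [isOpen_coinduced, isOpen_sigma_iff]
  rfl

theorem continuous_hat (i : D.I) : Continuous (D.hat i) :=
  continuous_def.2 fun _ hU => D.isOpen_iff.1 hU i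

theorem continuous_iff {Z : Type*} [TopologicalSpace Z] {f : D.Cmp → Z} :
    Continuous f ↔ ∀ i, Continuous fun p : D.M i => f (D.hat i p) := by
  constructor
  · intro h i; exact h.comp (D.continuous_hat i)
  · intro h
    refine continuous_def.2 fun U hU => D.isOpen_iff.2 fun i => ?_
    exact hU.preimage (h i)

theorem hat_injective (i : D.I) : Function.Injective (D.hat i) := fun _ _ h =>
  D.inj_le (D.hat_eq_iff.1 h).le

theorem isOpenMap_hat [T2Space Y] [LocallyCompactSpace Y] (i : D.I) : IsOpenMap (D.hat i) := by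
  intro W hW
  rw [D.isOpen_iff]
  intro j
  rw [isOpen_iff_mem_nhds]
  rintro p' ⟨p, hpW, hpp'⟩
  have heq : D.Th i p = D.Th j p' := D.hat_eq_iff.1 hpp'
  obtain ⟨W1, hW1, hW1c, hW1W⟩ := exists_mem_nhds_isClosed_subset (hW.mem_nhds hpW)
  have hS1 : D.h i '' (Subtype.val ⁻¹' W1) ∈ D.Th j p' := by
    rw [← heq]; exact D.mem_Th.2 ⟨W1, hW1, fun x hx => ⟨x, hx, rfl⟩⟩
  obtain ⟨V, hV, hVS⟩ := D.mem_Th.1 hS1
  obtain ⟨V', hV'V, hV'o, hpV'⟩ := mem_nhds_iff.1 hV
  have hN : D.m j ⁻¹' (D.N (D.b i)) ∈ 𝓝 p' := by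
    refine (D.m_cont j).continuousAt ((D.isOpen_N _).mem_nhds ?_)
    rw [← D.m_eq heq.le]; exact D.m_mem i p
  filter_upwards [hV'o.mem_nhds hpV', hN] with p1' h1 h2
  obtain ⟨j1, hj1, p1, hp1⟩ := D.exists_eq j p1' (D.b i) h2
  have hS1' : D.h i '' (Subtype.val ⁻¹' W1) ∈ D.Th j p1' :=
    D.mem_Th.2 ⟨V', hV'o.mem_nhds h1, fun x hx => hVS x (hV'V hx)⟩
  rw [hp1] at hS1'
  have hji : j1 = i := by
    by_contra hne
    obtain ⟨x, ⟨z, -, hz⟩, hx⟩ := Filter.nonempty_of_mem (inter_mem hS1' (D.range_mem_Th j1 p1))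
    exact (D.disj i j1 hj1.symm (Ne.symm hne)).le_bot ⟨⟨z, hz⟩, hx⟩
  subst hji
  refine ⟨p1, hW1W ?_, D.hat_eq_iff.2 hp1.symm⟩
  rw [← hW1c.closure_eq, mem_closure_iff_nhds]
  intro t ht
  obtain ⟨V1, hV1, hV1S⟩ := D.mem_Th.1 hS1'
  obtain ⟨V2, hV2, -, hc⟩ := D.nonsep j1 p1 _ (inter_mem ht hV1)
  obtain ⟨x, hx, hx0⟩ := hc.nonempty
  obtain ⟨z, hz, hzx⟩ := hV1S ⟨x, hx0⟩ (hV2 hx).2
  have : z = ⟨x, hx0⟩ := (D.h_emb j1).injective hzx
  subst this
  exact ⟨x, (hV2 hx).1, hz⟩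

theorem isOpenEmbedding_hat [T2Space Y] [LocallyCompactSpace Y] (i : D.I) :
    IsOpenEmbedding (D.hat i) :=
  IsOpenEmbedding.of_continuous_injective_isOpenMap (D.continuous_hat i) (D.hat_injective i)
    (D.isOpenMap_hat i)

/-! ### Universal property -/

/-- the extension to the completion of a map which extends to all the models -/
noncomputable def desc {Z : Type*} (F : ∀ i, D.M i → Z) (x : D.Cmp) : Z :=
  F (D.exists_hat x).choose (D.exists_hat x).choose_spec.choose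

theorem desc_hat {Z : Type*} [TopologicalSpace Z] [T2Space Z] {f : X0 → Z}
    {F : ∀ i, D.M i → Z} (hF : ∀ i, Continuous (F i))
    (hf : ∀ i (x : D.M0 i), f (D.h i x) = F i x) (i : D.I) (p : D.M i) :
    D.desc F (D.hat i p) = F i p := by
  have h1 := (D.exists_hat (D.hat i p)).choose_spec.choose_spec
  rw [D.hat_eq_iff] at h1
  have h2 := D.tendsto_of_ext (hF i) (hf i) p
  have h3 := D.tendsto_of_ext (hF (D.exists_hat (D.hat i p)).choose)
    (hf (D.exists_hat (D.hat i p)).choose) (D.exists_hat (D.hat i p)).choose_spec.choose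
  rw [← h1] at h3
  exact tendsto_nhds_unique h3 h2

theorem continuous_desc {Z : Type*} [TopologicalSpace Z] [T2Space Z] {f : X0 → Z}
    {F : ∀ i, D.M i → Z} (hF : ∀ i, Continuous (F i))
    (hf : ∀ i (x : D.M0 i), f (D.h i x) = F i x) : Continuous (D.desc F) := by
  rw [D.continuous_iff]
  intro i
  simp only [D.desc_hat hF hf]
  exact hF i

/-- the projection of the completion to `Y` -/
noncomputable def proj : D.Cmp → Y := D.desc D.m

theorem proj_hat [T2Space Y] (i : D.I) (p : D.M i) : D.proj (D.hat i p) = D.m i p :=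
  D.desc_hat D.m_cont D.m_h i p

theorem continuous_proj [T2Space Y] : Continuous D.proj := D.continuous_desc D.m_cont D.m_h

/-! ### The points over a base chart -/

theorem exists_hat_of_mem [T2Space Y] [LocallyCompactSpace Y] (x : D.Cmp) (a : D.A)
    (hx : D.proj x ∈ D.N a) : ∃ i, D.b i = a ∧ ∃ p : D.M i, x = D.hat i p := by
  obtain ⟨i, p, rfl⟩ := D.exists_hat x
  rw [D.proj_hat] at hx
  obtain ⟨j, hj, p', h⟩ := D.exists_eq i p a hx
  exact ⟨j, hj, p', D.hat_eq_iff.2 h⟩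

theorem proj_hat_mem [T2Space Y] (i : D.I) (p : D.M i) : D.proj (D.hat i p) ∈ D.N (D.b i) := by
  rw [D.proj_hat]; exact D.m_mem i p

theorem disjoint_hat {i j : D.I} (hb : D.b i = D.b j) (hne : i ≠ j) :
    Disjoint (range (D.hat i)) (range (D.hat j)) := by
  rw [Set.disjoint_left]
  rintro _ ⟨p, rfl⟩ ⟨p', hp'⟩
  exact hne (D.index_eq hb (D.hat_eq_iff.1 hp'.symm).le)

theorem preimage_proj [T2Space Y] [LocallyCompactSpace Y] (a : D.A) :
    D.proj ⁻¹' (D.N a) = ⋃ i ∈ {i | D.b i = a}, range (D.hat i) := by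
  ext x
  simp only [mem_preimage, mem_iUnion, mem_ofPred_eq, exists_prop]
  constructor
  · intro hx
    obtain ⟨i, hi, p, rfl⟩ := D.exists_hat_of_mem x a hx
    exact ⟨i, hi, mem_range_self p⟩
  · rintro ⟨i, rfl, p, rfl⟩
    exact D.proj_hat_mem i p

/-! ### Hausdorff, compact -/

instance [T2Space Y] [LocallyCompactSpace Y] : T2Space D.Cmp := by
  refine ⟨fun x x' hne => ?_⟩
  by_cases hy : D.proj x = D.proj x'
  · obtain ⟨a, ha⟩ := D.cover (D.proj x)
    obtain ⟨i, hi, p, rfl⟩ := D.exists_hat_of_mem x a ha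
    obtain ⟨i', hi', p', rfl⟩ := D.exists_hat_of_mem x' a (hy ▸ ha)
    by_cases hii : i = i'
    · subst hii
      have hpp : p ≠ p' := fun h => hne (by rw [h])
      obtain ⟨U, V, hU, hV, hpU, hpV, hd⟩ := t2_separation hpp
      refine ⟨_, _, D.isOpenMap_hat i U hU, D.isOpenMap_hat i V hV, ⟨p, hpU, rfl⟩,
        ⟨p', hpV, rfl⟩, ?_⟩
      exact (disjoint_image_iff (D.hat_injective i)).2 hd
    · exact ⟨_, _, (D.isOpenEmbedding_hat i).isOpen_range, (D.isOpenEmbedding_hat i').isOpen_range,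
        mem_range_self p, mem_range_self p', D.disjoint_hat (hi.trans hi'.symm) hii⟩
  · obtain ⟨U, V, hU, hV, hxU, hxV, hd⟩ := t2_separation hy
    exact ⟨_, _, hU.preimage D.continuous_proj, hV.preimage D.continuous_proj, hxU, hxV,
      hd.preimage _⟩

theorem isProper_proj [T2Space Y] [LocallyCompactSpace Y] [Finite D.I] (a : D.A) (K : Set Y)
    (hK : IsCompact K) (hKN : K ⊆ D.N a) : IsCompact (D.proj ⁻¹' K) := by
  have h1 : D.proj ⁻¹' K = ⋃ i ∈ {i | D.b i = a}, D.hat i '' (D.m i ⁻¹' K) := by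
    ext x
    simp only [mem_preimage, mem_iUnion, mem_ofPred_eq, exists_prop]
    constructor
    · intro hx
      obtain ⟨i, hi, p, rfl⟩ := D.exists_hat_of_mem x a (hKN hx)
      rw [D.proj_hat] at hx
      exact ⟨i, hi, p, hx, rfl⟩
    · rintro ⟨i, rfl, p, hp, rfl⟩
      rw [D.proj_hat]; exact hp
  rw [h1]
  refine (Set.toFinite _).isCompact_biUnion fun i hi => ?_
  exact (D.proper i K hK (by rw [show D.b i = a from hi]; exact hKN)).image (D.continuous_hat i)

theorem compactSpace [T2Space Y] [CompactSpace Y] [Finite D.I] : CompactSpace D.Cmp := by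
  have hY : LocallyCompactSpace Y := inferInstance
  choose a ha using D.cover
  choose K hK hyK hKN using fun y => exists_compact_subset (D.isOpen_N (a y)) (ha y)
  obtain ⟨t, ht⟩ := CompactSpace.elim_nhds_subcover (fun y => interior (K y))
    (fun y => isOpen_interior.mem_nhds (hyK y))
  refine ⟨?_⟩
  have h1 : (univ : Set D.Cmp) = ⋃ y ∈ t, D.proj ⁻¹' (K y) := by
    ext x
    simp only [mem_univ, mem_iUnion, mem_preimage, exists_prop, true_iff]
    have : D.proj x ∈ (⊤ : Set Y) := trivial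
    rw [← ht] at this
    simp only [mem_iUnion, exists_prop] at this
    obtain ⟨y, hy, hxy⟩ := this
    exact ⟨y, hy, interior_subset hxy⟩
  rw [h1]
  exact t.isCompact_biUnion fun y _ => D.isProper_proj (a y) (K y) (hK y) (hKN y)

/-! ### The embedding of `X0` -/

theorem exists_piece (x : X0) : ∃ i, x ∈ range (D.h i) := by
  obtain ⟨a, ha⟩ := D.cover (q x)
  obtain ⟨i, -, hi⟩ := D.cov x a ha
  exact ⟨i, hi⟩

/-- the embedding of `X0` in its completion -/
def incl (x : X0) : D.Cmp := ⟨𝓝 x, by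
  obtain ⟨i, z, rfl⟩ := D.exists_piece x
  exact ⟨⟨i, z⟩, D.Th_of_mem i z⟩⟩

theorem incl_h (i : D.I) (z : D.M0 i) : D.incl (D.h i z) = D.hat i z :=
  Subtype.ext (D.Th_of_mem i z).symm

theorem proj_incl [T2Space Y] (x : X0) : D.proj (D.incl x) = q x := by
  obtain ⟨i, z, rfl⟩ := D.exists_piece x
  rw [D.incl_h, D.proj_hat, D.m_h]

/-- a point of a model is in `M0` iff its trace is a neighbourhood filter -/
theorem mem_M0_of_eq_incl [T2Space Y] {i : D.I} {p : D.M i} {x : X0}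
    (h : D.hat i p = D.incl x) : ∃ hp : p ∈ D.M0 i, D.h i ⟨p, hp⟩ = x := by
  have h1 : q x ∈ D.N (D.b i) := by
    rw [← D.proj_incl, ← h]; exact D.proj_hat_mem i p
  obtain ⟨j, hj, z, rfl⟩ := D.cov x _ h1
  rw [D.incl_h] at h
  obtain rfl := D.index_eq hj.symm (D.hat_eq_iff.1 h).le
  obtain rfl := D.hat_injective _ h
  exact ⟨z.2, rfl⟩

theorem incl_injective [T2Space Y] : Function.Injective D.incl := by
  intro x x' h
  obtain ⟨i, z, rfl⟩ := D.exists_piece x
  rw [D.incl_h] at h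
  obtain ⟨hp, h2⟩ := D.mem_M0_of_eq_incl h
  exact h2

theorem continuous_incl [T2Space Y] : Continuous D.incl := by
  rw [continuous_iff_continuousAt]
  intro x
  obtain ⟨i, z, rfl⟩ := D.exists_piece x
  rw [← (D.h_emb i).continuousAt_iff]
  have : D.incl ∘ D.h i = D.hat i ∘ Subtype.val := funext fun z => D.incl_h i z
  rw [this]
  exact ((D.continuous_hat i).comp continuous_subtype_val).continuousAt

theorem isOpenMap_incl [T2Space Y] : IsOpenMap D.incl := by
  intro U hU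
  rw [D.isOpen_iff]
  intro i
  have h1 : D.hat i ⁻¹' (D.incl '' U) = Subtype.val '' (D.h i ⁻¹' U) := by
    ext p
    constructor
    · rintro ⟨x, hx, hxp⟩
      obtain ⟨hp, h2⟩ := D.mem_M0_of_eq_incl hxp.symm
      refine ⟨⟨p, hp⟩, ?_, rfl⟩
      show D.h i ⟨p, hp⟩ ∈ U
      rw [h2]; exact hx
    · rintro ⟨z, hz, rfl⟩
      exact ⟨D.h i z, hz, D.incl_h i z⟩
  rw [h1]
  exact (D.isOpen_M0 i).isOpenMap_subtype_val _ (hU.preimage (D.h_emb i).continuous)

theorem isOpenEmbedding_incl [T2Space Y] : IsOpenEmbedding D.incl :=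
  IsOpenEmbedding.of_continuous_injective_isOpenMap D.continuous_incl D.incl_injective
    D.isOpenMap_incl

theorem denseRange_incl : DenseRange D.incl := by
  intro x
  obtain ⟨i, p, rfl⟩ := D.exists_hat x
  have h1 := D.dense_M0 i p
  have h2 := image_closure_subset_closure_image (D.continuous_hat i) (mem_image_of_mem _ h1)
  refine closure_mono ?_ h2
  rintro _ ⟨z, hz, rfl⟩
  exact ⟨D.h i ⟨z, hz⟩, D.incl_h i ⟨z, hz⟩⟩

theorem desc_incl {Z : Type*} [TopologicalSpace Z] [T2Space Z] {f : X0 → Z}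
    {F : ∀ i, D.M i → Z} (hF : ∀ i, Continuous (F i))
    (hf : ∀ i (x : D.M0 i), f (D.h i x) = F i x) (x : X0) :
    D.desc F (D.incl x) = f x := by
  obtain ⟨i, z, rfl⟩ := D.exists_piece x
  rw [D.incl_h, D.desc_hat hF hf, hf]

theorem connectedSpace [T2Space Y] [ConnectedSpace X0] : ConnectedSpace D.Cmp := by
  have h := D.denseRange_incl
  have : PreconnectedSpace D.Cmp := h.preconnectedSpace D.continuous_incl
  exact { toPreconnectedSpace := this, toNonempty := (inferInstance : Nonempty X0).map D.incl }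

theorem secondCountable [T2Space Y] [LocallyCompactSpace Y] [Countable D.I]
    [∀ i, SecondCountableTopology (D.M i)] : SecondCountableTopology D.Cmp := by
  have h2 : ∀ i, SecondCountableTopology (range (D.hat i)) := fun i =>
    (D.isOpenEmbedding_hat i).isEmbedding.toHomeomorph.symm.isEmbedding.secondCountableTopology
  refine TopologicalSpace.secondCountableTopology_of_countable_cover
    (U := fun i => range (D.hat i)) (fun i => (D.isOpenEmbedding_hat i).isOpen_range) ?_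
  rw [eq_univ_iff_forall]
  intro x
  obtain ⟨i, p, rfl⟩ := D.exists_hat x
  exact mem_iUnion.2 ⟨i, mem_range_self p⟩

end Models

end Vale.Agent.P300.H573
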